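import Vale.Agent.P199.K.Pins

/-! P199, DIV: repeated cuts, and the linear forms as polynomials in the extra coordinate. -/

namespace Vale.Agent.P199.K

open MvPolynomial

variable {ι : Type}

/-- degrees without the extra coordinate -/
noncomputable def emb (d : ι →₀ ℕ) : Option ι →₀ ℕ := d.mapDomain some

/-- degrees of weight one in the extra coordinate -/
noncomputable def emb1 (d : ι →₀ ℕ) : Option ι →₀ ℕ := emb d + Finsupp.single none 1

/-- the ambient grading -/
noncomputable def extWt {σ τ : Type} (w : σ → ι →₀ ℕ) (D : τ → ι →₀ ℕ) :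
    σ ⊕ τ → Option ι →₀ ℕ := Sum.elim (fun v => emb (w v)) (fun a => emb1 (D a))

/-- A good prime gives one in the ambient ring, of no larger codimension. -/
def ExtPin : Prop :=
  ∀ (σ τ ι : Type) [Fintype σ] [Fintype τ] [Fintype ι] (w : σ → ι →₀ ℕ) (D : τ → ι →₀ ℕ),
    (∀ v, w v ≠ 0) → ∀ p : ℕ, p.Prime → ∀ P : Ideal (MvPolynomial σ ℂ), Good w p P →
      ∃ R : Ideal (MvPolynomial (σ ⊕ τ) ℂ), Good (extWt w D) p R ∧
        P.map (rename Sum.inl : MvPolynomial σ ℂ →ₐ[ℂ] MvPolynomial (σ ⊕ τ) ℂ) ≤ R ∧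
        codim R ≤ codim P

theorem emb_none (d : ι →₀ ℕ) : emb d none = 0 := by
  rw [emb]; exact Finsupp.mapDomain_of_notMem_range _ _ (by simp)

theorem emb_some (d : ι →₀ ℕ) (i : ι) : emb d (some i) = d i :=
  Finsupp.mapDomain_apply (Option.some_injective _) _ _

theorem emb1_none (d : ι →₀ ℕ) : emb1 d none = 1 := by simp [emb1, emb_none]

theorem emb1_ne_zero (d : ι →₀ ℕ) : emb1 d ≠ 0 := fun h => by
  have := emb1_none d; rw [h] at this; simp at this

theorem emb_ne_zero {d : ι →₀ ℕ} (h : d ≠ 0) : emb d ≠ 0 := fun e => h <| by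
  ext i; rw [← emb_some d i, e]; rfl

theorem lin_add {κ : Type} (p : ℕ) (a b : κ →₀ ℕ) : lin p (a + b) = lin p a + lin p b := by
  classical
  rw [lin, lin, lin, Finsupp.sum_add_index] <;> simp [add_mul]

theorem lin_emb (p : ℕ) (d : ι →₀ ℕ) : lin p (emb d) = rename some (lin p d) := by
  rw [lin, emb, Finsupp.sum_mapDomain_index, lin, Finsupp.sum, Finsupp.sum, map_sum] <;>
    simp [add_mul]

theorem pc_lin_emb (p : ℕ) (d : ι →₀ ℕ) :
    optionEquivLeft (ZMod p) ι (lin p (emb d)) = Polynomial.C (lin p d) := by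
  rw [lin_emb, lin, map_finsuppSum, map_finsuppSum, map_finsuppSum]
  refine Finsupp.sum_congr fun i _ => ?_
  simp

theorem pc_lin_emb1 (p : ℕ) (d : ι →₀ ℕ) :
    optionEquivLeft (ZMod p) ι (lin p (emb1 d)) = Polynomial.X + Polynomial.C (lin p d) := by
  rw [emb1, lin_add, map_add, pc_lin_emb, add_comm, lin, Finsupp.sum_single_index (by simp)]
  simp

theorem degreeOf_lin_le (p : ℕ) (d : Option ι →₀ ℕ) : (lin p d).degreeOf none ≤ 1 := by
  classical
  refine (degreeOf_sum_le none d.support _).trans (Finset.sup_le fun i _ => ?_)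
  refine (degreeOf_C_mul_le _ none _).trans ?_
  rw [X, degreeOf_le_iff]
  intro m hm
  have := support_monomial_subset hm
  rw [Finset.mem_singleton] at this
  subst this
  by_cases h : i = none <;> simp [h]

/-- repeated cuts, stopping at the primes which contain `stop` -/
theorem cut_induct {σ : Type} [Fintype σ] [Fintype ι] (hC : CutExpandPin)
    (w : σ → Option ι →₀ ℕ) (hw : ∀ v, w v ≠ 0) {p : ℕ} (hp : p.Prime) (stop : MvPolynomial σ ℂ) :
    ∀ (gs : List (MvPolynomial σ ℂ × (Option ι →₀ ℕ))),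
      (∀ g ∈ gs, IsWeightedHomogeneous w g.1 g.2) →
      ∀ (Z : MvPolynomial (Option ι) (ZMod p) → Prop), Z 0 → (∀ a b, Z a → Z b → Z (a + b)) →
      ∀ T : Ideal (MvPolynomial σ ℂ), T.IsPrime → IsHom w T →
        (∀ (Q : Ideal (MvPolynomial σ ℂ)) (F : MvPolynomial (Option ι) (ZMod p)) (k : ℕ),
          Q.IsPrime → IsHom w Q → T ≤ Q → codim Q ≤ codim T + k →
          F.degreeOf none + k ≤ gs.length → (stop ∈ Q ∨ ∀ g ∈ gs, g.1 ∈ Q) →
          Z (F * cls w p Q)) →
        Z ((gs.map fun g => lin p g.2).prod * cls w p T)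
  | [], _, Z, _, _, T, hT, hTh, h => by
    simpa using h T 1 0 hT hTh le_rfl le_rfl (by simp) (Or.inr (by simp))
  | g :: gs, hg, Z, hz, hadd, T, hT, hTh, h => by
    have hgs : ∀ x ∈ gs, IsWeightedHomogeneous w x.1 x.2 := fun x hx =>
      hg x (List.mem_cons_of_mem _ hx)
    have dprod : ∀ l : List (MvPolynomial σ ℂ × (Option ι →₀ ℕ)),
        ((l.map fun g => lin p g.2).prod).degreeOf none ≤ l.length := by
      intro l
      induction l with
      | nil => simp
      | cons a l ih =>
        rw [List.map_cons, List.prod_cons, List.length_cons]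
        exact (degreeOf_mul_le _ _ _).trans (by have := degreeOf_lin_le p a.2; omega)
    by_cases hs : stop ∈ T
    · exact h T _ 0 hT hTh le_rfl le_rfl (by simpa using dprod (g :: gs)) (Or.inl hs)
    by_cases hgT : g.1 ∈ T
    · rw [List.map_cons, List.prod_cons, mul_assoc]
      refine cut_induct hC w hw hp stop gs hgs (fun x => Z (lin p g.2 * x)) (by simpa using hz)
        (fun a b ha hb => by rw [mul_add]; exact hadd _ _ ha hb) T hT hTh ?_
      intro Q F k hQ hQh hTQ hk hd hor
      rw [← mul_assoc]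
      refine h Q _ k hQ hQh hTQ hk ?_ ?_
      · have := degreeOf_mul_le none (lin p g.2) F
        have := degreeOf_lin_le p g.2
        simp only [List.length_cons]; omega
      · exact hor.imp_right fun H x hx => (List.mem_cons.1 hx).elim (fun e => e ▸ hTQ hgT) (H x)
    obtain ⟨l, hl, heq⟩ := hC σ (Option ι) w hw p hp T g.1 g.2 hT hTh
      (hg g (List.mem_cons_self ..)) hgT
    rw [List.map_cons, List.prod_cons, mul_comm (lin p g.2), mul_assoc, heq,
      ← List.sum_map_mul_left]
    have key : ∀ L : List (MvPolynomial (Option ι) (ZMod p)), (∀ x ∈ L, Z x) → Z L.sum := by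
      intro L hL
      induction L with
      | nil => simpa using hz
      | cons a L ih =>
        rw [List.sum_cons]
        exact hadd _ _ (hL a (by simp)) (ih fun x hx => hL x (by simp [hx]))
    refine key _ fun x hx => ?_
    obtain ⟨Q', hQ', rfl⟩ := List.mem_map.1 hx
    obtain ⟨h1, h2, h3, h4, h5⟩ := hl Q' hQ'
    refine cut_induct hC w hw hp stop gs hgs Z hz hadd Q' h1 h2 ?_
    intro Q F k hQ hQh hTQ hk hd hor
    refine h Q F (k + 1) hQ hQh (h3.trans hTQ) (by omega) (by simp only [List.length_cons]; omega) ?_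
    exact hor.imp_right fun H x hx => (List.mem_cons.1 hx).elim (fun e => e ▸ hTQ h4) (H x)

end Vale.Agent.P199.K
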