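import Vale.Agent.P199.K.Defs

/-! P199, DIV: the determinant of the generic combination of the Weyl matrices. -/

namespace Vale.Agent.P199.K

open MvPolynomial Matrix

variable {p r : ℕ} [Fact p.Prime]

/-- the generic determinant -/
noncomputable def det0 (p r : ℕ) [Fact p.Prime] : MvPolynomial (Gp p r) ℂ :=
  (∑ a, (X a : MvPolynomial (Gp p r) ℂ) • WA p r (MvPolynomial (Gp p r) ℂ) a).det

theorem zeta_pow_p : zeta p ^ p = 1 :=
  (Complex.isPrimitiveRoot_exp p (Fact.out : p.Prime).ne_zero).pow_eq_one

/-- the character of `ℤ/p` -/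
noncomputable def ee (p : ℕ) [Fact p.Prime] : AddChar (ZMod p) ℂ :=
  AddChar.zmodChar p (zeta_pow_p (p := p))

theorem ee_apply (x : ZMod p) : ee p x = zeta p ^ x.val := rfl

theorem W_apply (a : Gp p r) (i j : Ix p r) :
    W p r a i j = if i = j + (fun k => a (Sum.inl k)) then
      ee p (∑ k, a (Sum.inr k) * j k) else 0 := rfl

omit [Fact p.Prime] in
theorem WA_apply (R : Type) [CommRing R] [Algebra ℂ R] (a : Gp p r) (i j : Ix p r) :
    WA p r R a i j = algebraMap ℂ R (W p r a i j) := rfl

theorem aeval_det0 (R : Type) [CommRing R] [Algebra ℂ R] (φ : Gp p r → R) :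
    aeval φ (det0 p r) = (∑ a, φ a • WA p r R a).det := by
  rw [det0, AlgHom.map_det]
  congr 1
  ext i j
  simp only [AlgHom.mapMatrix_apply, Matrix.map_apply, Matrix.sum_apply, Matrix.smul_apply,
    smul_eq_mul, map_sum, map_mul, aeval_X, WA_apply]
  simp

theorem det0_homogeneous : (det0 p r).IsHomogeneous (Fintype.card (Ix p r)) := by
  classical
  rw [det0, Matrix.det_apply]
  refine IsHomogeneous.sum _ _ _ fun g _ => ?_
  have h : (∏ i, (∑ a, (X a : MvPolynomial (Gp p r) ℂ) •
      WA p r (MvPolynomial (Gp p r) ℂ) a) (g i) i).IsHomogeneous (Fintype.card (Ix p r)) := by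
    have := IsHomogeneous.prod (Finset.univ : Finset (Ix p r)) (fun i => (∑ a,
      (X a : MvPolynomial (Gp p r) ℂ) • WA p r (MvPolynomial (Gp p r) ℂ) a) (g i) i)
      (fun _ => 1) (fun i _ => ?_)
    · simpa using this
    · simp only [Matrix.sum_apply, Matrix.smul_apply, smul_eq_mul, WA_apply]
      refine IsHomogeneous.sum _ _ _ fun a _ => ?_
      rw [show (1 : ℕ) = 1 + 0 from rfl]
      exact (isHomogeneous_X ℂ a).mul (isHomogeneous_C _ _)
  rcases Int.units_eq_one_or (Equiv.Perm.sign g) with e | e
  · simpa [e] using h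
  · simpa [e] using h.neg

theorem det_W_ne_zero (a : Gp p r) : (W p r a).det ≠ 0 := by
  classical
  let x : Ix p r := fun k => a (Sum.inl k)
  have : W p r a = (Matrix.diagonal fun j : Ix p r => ee p (∑ k, a (Sum.inr k) * j k)).submatrix
      (Equiv.subRight x) id := by
    ext i j
    rw [W_apply, submatrix_apply, diagonal_apply, Equiv.subRight_apply, id]
    by_cases h : i = j + x
    · rw [if_pos h, if_pos (by rw [h]; simp)]; rw [h]; simp
    · rw [if_neg h, if_neg (fun e => h (by rw [← e]; simp))]
  rw [this, det_permute, det_diagonal]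
  refine mul_ne_zero ?_ (Finset.prod_ne_zero_iff.2 fun j _ => ?_)
  · rcases Int.units_eq_one_or (Equiv.Perm.sign (Equiv.subRight x)) with e | e <;> simp [e]
  · rw [ee_apply]; exact pow_ne_zero _ (Complex.exp_ne_zero _)

theorem coeff_det0_single (a : Gp p r) :
    coeff (Finsupp.single a (Fintype.card (Ix p r))) (det0 p r) = (W p r a).det := by
  classical
  have h := aeval_det0 ℂ (Pi.single a 1 : Gp p r → ℂ)
  have hs : (∑ b, (Pi.single a 1 : Gp p r → ℂ) b • WA p r ℂ b) = W p r a := by
    rw [Finset.sum_eq_single a (fun b _ hb => by rw [Pi.single_eq_of_ne hb, zero_smul]) (by simp)]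
    ext i j
    simp [WA_apply]
  rw [hs, aeval_def, eval₂_eq'] at h
  rw [← h, Finset.sum_eq_single (Finsupp.single a (Fintype.card (Ix p r)))]
  · rw [Finset.prod_eq_single a (fun b _ hb => by simp [Finsupp.single_eq_of_ne hb]) (by simp)]
    simp
  · intro m hm hne
    have hdeg := det0_homogeneous (mem_support_iff.1 hm)
    obtain ⟨b, hb, hmb⟩ : ∃ b, b ≠ a ∧ m b ≠ 0 := by
      by_contra hcon
      push Not at hcon
      apply hne
      have e : m = Finsupp.single a (m a) := by
        ext b
        by_cases hb : b = a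
        · subst hb; simp
        · rw [Finsupp.single_eq_of_ne hb, hcon b hb]
      rw [e, Finsupp.weight_apply, Finsupp.sum_single_index (by simp)] at hdeg
      rw [e]; simp only [Pi.one_apply, smul_eq_mul, mul_one] at hdeg; rw [hdeg]
    rw [Finset.prod_eq_zero (Finset.mem_univ b) (by simp [hb, zero_pow hmb]), mul_zero]
  · intro hm
    rw [notMem_support_iff.1 hm]
    simp

/-- twisting one coordinate does not change the determinant -/
theorem det0_twist (q : Co r) :
    aeval (fun a : Gp p r => C (ee p (a q)) * X a) (det0 p r) = det0 p r := by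
  classical
  rw [aeval_det0, det0]
  rcases q with k | k
  · let d : Ix p r → MvPolynomial (Gp p r) ℂ := fun i => C (ee p (i k))
    let d' : Ix p r → MvPolynomial (Gp p r) ℂ := fun i => C (ee p (-(i k)))
    have hd : (diagonal d).det * (diagonal d').det = 1 := by
      rw [det_diagonal, det_diagonal, ← Finset.prod_mul_distrib]
      exact Finset.prod_eq_one fun i _ => by
        rw [← C_mul, ← AddChar.map_add_eq_mul, add_neg_cancel, AddChar.map_zero_eq_one, C_1]
    have e : (∑ a : Gp p r, (C (ee p (a (Sum.inl k))) * X a) •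
        WA p r (MvPolynomial (Gp p r) ℂ) a) = diagonal d *
        (∑ a, (X a : MvPolynomial (Gp p r) ℂ) • WA p r (MvPolynomial (Gp p r) ℂ) a) * diagonal d' := by
      refine Matrix.ext fun i j => ?_
      simp only [Matrix.mul_diagonal, Matrix.diagonal_mul, Matrix.sum_apply, Matrix.smul_apply,
        smul_eq_mul, Finset.mul_sum, Finset.sum_mul, WA_apply, W_apply]
      refine Finset.sum_congr rfl fun a _ => ?_
      by_cases h : i = j + fun k => a (Sum.inl k)
      · simp only [if_pos h, d, d']
        have hk : i k + -(j k) = a (Sum.inl k) := by rw [h]; simp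
        rw [← hk, AddChar.map_add_eq_mul, C_mul]
        ring
      · simp [if_neg h]
    rw [e, det_mul, det_mul, mul_right_comm, hd, one_mul]
  · let e : Ix p r ≃ Ix p r := Equiv.addRight (Pi.single k (1 : ZMod p) : Ix p r)
    have h : (∑ a : Gp p r, (C (ee p (a (Sum.inr k))) * X a) •
        WA p r (MvPolynomial (Gp p r) ℂ) a) =
        (∑ a, (X a : MvPolynomial (Gp p r) ℂ) • WA p r (MvPolynomial (Gp p r) ℂ) a).submatrix e e := by
      refine Matrix.ext fun i j => ?_
      simp only [Matrix.submatrix_apply, Matrix.sum_apply, Matrix.smul_apply, smul_eq_mul,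
        WA_apply, W_apply, e, Equiv.coe_addRight]
      refine Finset.sum_congr rfl fun a _ => ?_
      have hc : i + Pi.single k 1 = (j + Pi.single k 1) + (fun k => a (Sum.inl k)) ↔
          i = j + fun k => a (Sum.inl k) := by
        rw [add_right_comm j, add_left_inj]
      by_cases h : i = j + fun k => a (Sum.inl k)
      · rw [if_pos h, if_pos (hc.2 h)]
        have hs : ∑ x, a (Sum.inr x) * (j + (Pi.single k (1 : ZMod p) : Ix p r)) x =
            a (Sum.inr k) + ∑ x, a (Sum.inr x) * j x := by
          simp only [Pi.add_apply, mul_add, Finset.sum_add_distrib]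
          have h1 : ∑ x, a (Sum.inr x) * (Pi.single k (1 : ZMod p) : Ix p r) x = a (Sum.inr k) := by
            rw [Finset.sum_eq_single k (fun b _ hb => by simp [Pi.single_eq_of_ne hb]) (by simp)]
            simp
          rw [h1, add_comm]
        rw [hs, AddChar.map_add_eq_mul, algebraMap_eq, C_mul]
        ring
      · rw [if_neg h, if_neg (mt hc.1 h)]; simp
    rw [h, det_submatrix_equiv_self]

theorem det0_weight {m : Gp p r →₀ ℕ} (hm : coeff m (det0 p r) ≠ 0) (q : Co r) :
    (∑ a, (m a : ZMod p) * a q) = 0 := by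
  classical
  have h := congrArg (coeff m) (det0_twist (p := p) q)
  have key : ∀ f : MvPolynomial (Gp p r) ℂ,
      coeff m (aeval (fun a : Gp p r => C (ee p (a q)) * X a) f) =
        (∏ a, ee p (a q) ^ m a) * coeff m f := by
    intro f
    induction f using MvPolynomial.induction_on' with
    | monomial n c =>
      rw [aeval_monomial, Finsupp.prod_fintype _ _ (fun _ => pow_zero _)]
      simp only [mul_pow, Finset.prod_mul_distrib, ← map_pow, ← map_prod]
      rw [algebraMap_eq, ← mul_assoc, ← C_mul, ← Finsupp.prod_fintype n (fun a k => X a ^ k)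
        (fun _ => pow_zero _), ← monomial_eq, coeff_monomial, coeff_monomial]
      by_cases e : n = m
      · subst e; simp [mul_comm]
      · simp [e]
    | add f g hf hg => rw [map_add, coeff_add, hf, hg, coeff_add, mul_add]
  rw [key] at h
  have h1 : ∏ a, ee p (a q) ^ m a = 1 := mul_right_cancel₀ hm (by simpa using h)
  have h2 : ee p (∑ a, (m a : ZMod p) * a q) = 1 := by
    rw [← h1]
    have : ∀ s : Finset (Gp p r), ee p (∑ a ∈ s, (m a : ZMod p) * a q) =
        ∏ a ∈ s, ee p (a q) ^ m a := by
      intro s
      induction s using Finset.induction_on with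
      | empty => simp
      | insert a s ha ih =>
        rw [Finset.sum_insert ha, Finset.prod_insert ha, AddChar.map_add_eq_mul, ih,
          ← AddChar.map_nsmul_eq_pow, nsmul_eq_mul]
    exact this _
  rw [ee_apply] at h2
  have hd : p ∣ (∑ a, (m a : ZMod p) * a q).val :=
    (Complex.isPrimitiveRoot_exp p (Fact.out : p.Prime).ne_zero).dvd_of_pow_eq_one _ h2
  exact (ZMod.val_eq_zero _).1 (Nat.eq_zero_of_dvd_of_lt hd (ZMod.val_lt _))

end Vale.Agent.P199.K
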