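import Vale.Agent.P199.K.DivAux.Cuts

/-! P199, DIV: the ambient prime `P[Φ]`, with the numerator of its Hilbert series. -/

namespace Vale.Agent.P199.K

open MvPolynomial

variable {σ τ ι : Type} [Fintype σ] [Fintype τ] [Fintype ι] (w : σ → ι →₀ ℕ) (D : τ → ι →₀ ℕ)

/-- the graded piece is finite dimensional -/
theorem finite_piece (hw : ∀ v, w v ≠ 0) (d : ι →₀ ℕ) :
    Module.Finite ℂ (weightedHomogeneousSubmodule ℂ w d) := by
  classical
  let S : Set (σ →₀ ℕ) := {l | Finsupp.weight w l = d}
  have hS : S.Finite := by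
    refine (Set.finite_Iic (Finsupp.equivFunOnFinite.symm fun _ => ∑ i, d i : σ →₀ ℕ)).subset ?_
    intro l hl v
    have h := congrArg (fun e : ι →₀ ℕ => ∑ i, e i) (show Finsupp.weight w l = d from hl)
    rw [Finsupp.weight_apply, Finsupp.sum_fintype _ _ (fun v => by simp)] at h
    simp only [Finsupp.finsetSum_apply, Finsupp.smul_apply, smul_eq_mul] at h
    rw [Finset.sum_comm] at h
    show l v ≤ ∑ i, d i
    refine le_trans ?_ (h ▸ Finset.single_le_sum (f := fun v => ∑ i, l v * w v i)
      (fun _ _ => Nat.zero_le _) (Finset.mem_univ v))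
    obtain ⟨i, hi⟩ := Finsupp.ne_iff.1 (hw v)
    refine le_trans ?_ (Finset.single_le_sum (f := fun i => l v * w v i)
      (fun _ _ => Nat.zero_le _) (Finset.mem_univ i))
    exact Nat.le_mul_of_pos_right _ (Nat.pos_of_ne_zero (by simpa using hi))
  haveI := hS.to_subtype
  have hle : weightedHomogeneousSubmodule ℂ w d ≤
      Submodule.span ℂ (Set.range fun l : S => monomial (l : σ →₀ ℕ) (1 : ℂ)) := by
    intro f hf
    rw [← f.support_sum_monomial_coeff]
    refine Submodule.sum_mem _ fun l hl => ?_
    rw [← mul_one (coeff l f), ← smul_eq_mul, ← smul_monomial]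
    exact Submodule.smul_mem _ _ (Submodule.subset_span
      ⟨⟨l, hf (mem_support_iff.1 hl)⟩, rfl⟩)
  haveI := Module.Finite.span_of_finite ℂ
    (Set.finite_range fun l : S => monomial (l : σ →₀ ℕ) (1 : ℂ))
  exact Module.Finite.of_injective (Submodule.inclusion hle) (Submodule.inclusion_injective _)

theorem comp_monomial {κ M R : Type} [CommSemiring R] [AddCommMonoid M] [DecidableEq M] (v : κ → M)
    (d : M) (n : κ →₀ ℕ) (c : R) : weightedHomogeneousComponent v d (monomial n c) =
      if Finsupp.weight v n = d then monomial n c else 0 := by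
  split_ifs with h
  · exact (weightedHomogeneousComponent_of_mem (isWeightedHomogeneous_monomial v n c h)).trans
      (if_pos rfl)
  · exact (weightedHomogeneousComponent_of_mem (isWeightedHomogeneous_monomial v n c rfl)).trans
      (if_neg (Ne.symm h))

/-- split off the new variables -/
noncomputable def psi (σ τ : Type) :
    MvPolynomial (σ ⊕ τ) ℂ →ₐ[ℂ] MvPolynomial τ (MvPolynomial σ ℂ) :=
  aeval (Sum.elim (fun v => C (X v)) X)

/-- the ambient prime -/
noncomputable def ext' (τ : Type) (P : Ideal (MvPolynomial σ ℂ)) :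
    Ideal (MvPolynomial (σ ⊕ τ) ℂ) :=
  RingHom.ker ((mapAlgHom (Ideal.Quotient.mkₐ ℂ P)).comp (psi σ τ))

theorem mem_ext' {P : Ideal (MvPolynomial σ ℂ)} {f : MvPolynomial (σ ⊕ τ) ℂ} :
    f ∈ ext' τ P ↔ ∀ m, coeff m (psi σ τ f) ∈ P := by
  rw [ext', RingHom.mem_ker, MvPolynomial.ext_iff]
  simp [coeff_map, Ideal.Quotient.eq_zero_iff_mem]

theorem psi_rename (f : MvPolynomial σ ℂ) : psi σ τ (rename Sum.inl f) = C f := by
  induction f using MvPolynomial.induction_on with
  | C c => simp [psi, IsScalarTower.algebraMap_apply ℂ (MvPolynomial σ ℂ)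
      (MvPolynomial τ (MvPolynomial σ ℂ))]
  | add f g hf hg => simp [map_add, hf, hg]
  | mul_X f i hf =>
    rw [map_mul, map_mul, hf, rename_X, C_mul]
    simp [psi]

theorem psi_monomial (n : σ ⊕ τ →₀ ℕ) (c : ℂ) : psi σ τ (monomial n c) =
    monomial (Finsupp.sumFinsuppEquivProdFinsupp n).2
      (monomial (Finsupp.sumFinsuppEquivProdFinsupp n).1 c) := by
  rw [psi, aeval_monomial, Finsupp.prod_fintype _ _ (fun _ => pow_zero _), Fintype.prod_sum_type,
    monomial_eq (s := (Finsupp.sumFinsuppEquivProdFinsupp n).2),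
    monomial_eq (s := (Finsupp.sumFinsuppEquivProdFinsupp n).1),
    Finsupp.prod_fintype _ _ (fun _ => pow_zero _), Finsupp.prod_fintype _ _ (fun _ => pow_zero _),
    C_mul, map_prod, IsScalarTower.algebraMap_apply ℂ (MvPolynomial σ ℂ)
      (MvPolynomial τ (MvPolynomial σ ℂ))]
  simp [Finsupp.fst_sumFinsuppEquivProdFinsupp, Finsupp.snd_sumFinsuppEquivProdFinsupp,
    mul_assoc]

/-- one graded piece of the quotient -/
def Piece (P : Ideal (MvPolynomial σ ℂ)) (e : ι →₀ ℕ) : Type :=
  (weightedHomogeneousSubmodule ℂ w e) ⧸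
    (P.restrictScalars ℂ).comap (weightedHomogeneousSubmodule ℂ w e).subtype

noncomputable instance (P : Ideal (MvPolynomial σ ℂ)) (e : ι →₀ ℕ) : AddCommGroup (Piece w P e) :=
  inferInstanceAs (AddCommGroup ((weightedHomogeneousSubmodule ℂ w e) ⧸
    (P.restrictScalars ℂ).comap (weightedHomogeneousSubmodule ℂ w e).subtype))

noncomputable instance (P : Ideal (MvPolynomial σ ℂ)) (e : ι →₀ ℕ) : Module ℂ (Piece w P e) :=
  inferInstanceAs (Module ℂ ((weightedHomogeneousSubmodule ℂ w e) ⧸
    (P.restrictScalars ℂ).comap (weightedHomogeneousSubmodule ℂ w e).subtype))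

theorem piece_finite (hw : ∀ v, w v ≠ 0) (P : Ideal (MvPolynomial σ ℂ)) (e : ι →₀ ℕ) :
    Module.Finite ℂ (Piece w P e) := by
  have := finite_piece w hw e
  exact inferInstanceAs (Module.Finite ℂ ((weightedHomogeneousSubmodule ℂ w e) ⧸
    (P.restrictScalars ℂ).comap (weightedHomogeneousSubmodule ℂ w e).subtype))

/-- the degree of a monomial in the new variables, and its remainder -/
def Fits (d : Option ι →₀ ℕ) (m : τ →₀ ℕ) : Prop :=
  (∑ a, m a) = d none ∧ Finsupp.weight D m ≤ d.some

theorem weight_ext (n : σ ⊕ τ →₀ ℕ) (d : Option ι →₀ ℕ) :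
    Finsupp.weight (extWt w D) n = d ↔ Fits D d (Finsupp.sumFinsuppEquivProdFinsupp n).2 ∧
      Finsupp.weight w (Finsupp.sumFinsuppEquivProdFinsupp n).1 =
        d.some - Finsupp.weight D (Finsupp.sumFinsuppEquivProdFinsupp n).2 := by
  classical
  set l := (Finsupp.sumFinsuppEquivProdFinsupp n).1
  set m := (Finsupp.sumFinsuppEquivProdFinsupp n).2
  have h0 : Finsupp.weight (extWt w D) n none = ∑ a, m a := by
    simp [Finsupp.weight_apply, Finsupp.sum_fintype, Fintype.sum_sum_type, extWt, emb1, emb_none,
      m, Finsupp.snd_sumFinsuppEquivProdFinsupp]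
  have h1 : ∀ i, Finsupp.weight (extWt w D) n (some i) =
      Finsupp.weight w l i + Finsupp.weight D m i := by
    intro i
    simp [Finsupp.weight_apply, Finsupp.sum_fintype, Fintype.sum_sum_type, extWt, emb1, emb_some,
      l, m, Finsupp.fst_sumFinsuppEquivProdFinsupp, Finsupp.snd_sumFinsuppEquivProdFinsupp]
  constructor
  · intro h
    subst h
    refine ⟨⟨h0.symm, fun i => ?_⟩, ?_⟩
    · simp [h1]
    · ext i; simp [h1]
  · rintro ⟨⟨e0, e1⟩, e2⟩
    ext o
    rcases o with _ | i
    · rw [h0, e0]
    · rw [h1, e2, Finsupp.tsub_apply]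
      have := e1 i
      simp only [Finsupp.some_apply] at *
      omega

open Classical in
theorem coeff_psi_comp (d : Option ι →₀ ℕ) (m : τ →₀ ℕ) (f : MvPolynomial (σ ⊕ τ) ℂ) :
    coeff m (psi σ τ (weightedHomogeneousComponent (extWt w D) d f)) =
      if Fits D d m then
        weightedHomogeneousComponent w (d.some - Finsupp.weight D m) (coeff m (psi σ τ f))
      else 0 := by
  induction f using MvPolynomial.induction_on' with
  | monomial n c =>
    rw [comp_monomial]
    have hn := weight_ext w D n d
    rw [psi_monomial, coeff_monomial]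
    by_cases hm : (Finsupp.sumFinsuppEquivProdFinsupp n).2 = m
    · subst hm
      rw [if_pos rfl, comp_monomial]
      by_cases h : Finsupp.weight (extWt w D) n = d
      · rw [if_pos h, psi_monomial, coeff_monomial, if_pos rfl, if_pos (hn.1 h).1,
          if_pos (hn.1 h).2]
      · rw [if_neg h, map_zero, coeff_zero]
        split_ifs with h1 h2
        · exact absurd (hn.2 ⟨h1, h2⟩) h
        · rfl
        · rfl
    · rw [if_neg hm, map_zero, ite_self]
      by_cases h : Finsupp.weight (extWt w D) n = d
      · rw [if_pos h, psi_monomial, coeff_monomial, if_neg hm]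
      · rw [if_neg h, map_zero, coeff_zero]
  | add f g hf hg =>
    simp only [map_add, coeff_add, hf, hg]
    split_ifs <;> simp

theorem ext'_hom {P : Ideal (MvPolynomial σ ℂ)} (hP : IsHom w P) :
    IsHom (extWt w D) (ext' τ P) := by
  classical
  intro f hf d
  rw [mem_ext'] at hf ⊢
  intro m
  rw [coeff_psi_comp]
  split_ifs
  · exact hP _ (hf m) _
  · exact P.zero_mem

/-- the monomials in the new variables of one degree -/
noncomputable def fitSet [DecidableEq τ] (s : Finset τ) (d : Option ι →₀ ℕ) : Finset (τ →₀ ℕ) :=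
  open Classical in (s.finsuppAntidiag (d none)).filter fun m => Finsupp.weight D m ≤ d.some

theorem mem_fitSet [DecidableEq τ] {d : Option ι →₀ ℕ} {m : τ →₀ ℕ} :
    m ∈ fitSet D Finset.univ d ↔ Fits D d m := by
  simp [fitSet, Fits]

theorem hilb_eq (P : Ideal (MvPolynomial σ ℂ)) (e : ι →₀ ℕ) :
    hilb w P e = Module.finrank ℂ (Piece w P e) := rfl

set_option maxHeartbeats 800000 in
theorem hilb_ext' [DecidableEq τ] (hw : ∀ v, w v ≠ 0) {P : Ideal (MvPolynomial σ ℂ)}
    (d : Option ι →₀ ℕ) :
    hilb (extWt w D) (ext' τ P) d =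
      ∑ m ∈ fitSet D Finset.univ d, hilb w P (d.some - Finsupp.weight D m) := by
  classical
  let S : (τ →₀ ℕ) → Submodule ℂ (MvPolynomial σ ℂ) := fun m =>
    weightedHomogeneousSubmodule ℂ w (d.some - Finsupp.weight D m)
  let S' := weightedHomogeneousSubmodule ℂ (extWt w D) d
  have hcoeff : ∀ (f : S') (m : τ →₀ ℕ), coeff m (psi σ τ f.1) =
      if Fits D d m then weightedHomogeneousComponent w (d.some - Finsupp.weight D m)
        (coeff m (psi σ τ f.1)) else 0 := by
    intro f m
    conv_lhs => rw [← weightedHomogeneousComponent_of_mem f.2 |>.trans (if_pos rfl)]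
    exact coeff_psi_comp w D d m f.1
  have hmem : ∀ (f : S') (m : τ →₀ ℕ), m ∈ fitSet D Finset.univ d →
      coeff m (psi σ τ f.1) ∈ S m := by
    intro f m hm
    rw [hcoeff f m, if_pos ((mem_fitSet D).1 hm)]
    exact weightedHomogeneousComponent_mem w _ _
  let T : S' →ₗ[ℂ] ((m : {x // x ∈ fitSet D Finset.univ d}) →
      Piece w P (d.some - Finsupp.weight D m.1)) :=
    LinearMap.pi fun m => (Submodule.mkQ ((P.restrictScalars ℂ).comap (S m.1).subtype)).comp
      (LinearMap.codRestrict (S m.1)
        (((lcoeff (MvPolynomial σ ℂ) m.1).restrictScalars ℂ).comp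
          ((psi σ τ).toLinearMap.comp S'.subtype))
        (fun f => hmem f m.1 m.2))
  have hker : LinearMap.ker T = ((ext' τ P).restrictScalars ℂ).comap S'.subtype := by
    ext f
    simp only [LinearMap.mem_ker, Submodule.mem_comap, Submodule.restrictScalars_mem, mem_ext']
    constructor
    · intro h m
      by_cases hm : m ∈ fitSet D Finset.univ d
      · have := congrFun h ⟨m, hm⟩
        exact (Submodule.Quotient.mk_eq_zero ((P.restrictScalars ℂ).comap (S m).subtype)).1 this
      · rw [Submodule.subtype_apply, hcoeff f m, if_neg (mt (mem_fitSet D).2 hm)]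
        exact P.zero_mem
    · intro h
      funext m
      exact (Submodule.Quotient.mk_eq_zero ((P.restrictScalars ℂ).comap (S m.1).subtype)).2 (h m.1)
  have hsurj : Function.Surjective T := by
    intro y
    choose g hg using fun m => Submodule.mkQ_surjective _ (y m)
    have hinl : ∀ m : {x // x ∈ fitSet D Finset.univ d},
        psi σ τ (rename Sum.inl (g m).1 * ∏ a, X (Sum.inr a) ^ m.1 a) = monomial m.1 (g m).1 := by
      intro m
      rw [map_mul, psi_rename, map_prod, monomial_eq,
        Finsupp.prod_fintype _ _ (fun _ => pow_zero _)]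
      simp [psi]
    let f0 : MvPolynomial (σ ⊕ τ) ℂ :=
      ∑ m : {x // x ∈ fitSet D Finset.univ d}, rename Sum.inl (g m).1 * ∏ a, X (Sum.inr a) ^ m.1 a
    refine ⟨⟨weightedHomogeneousComponent (extWt w D) d f0,
      weightedHomogeneousComponent_mem _ _ _⟩, ?_⟩
    funext m
    rw [← hg m]
    refine congrArg (Submodule.mkQ _) (Subtype.ext ?_)
    show coeff m.1 (psi σ τ (weightedHomogeneousComponent (extWt w D) d f0)) = (g m).1
    rw [coeff_psi_comp, if_pos ((mem_fitSet D).1 m.2)]
    have : coeff m.1 (psi σ τ f0) = (g m).1 := by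
      simp only [f0, map_sum, hinl, coeff_sum, coeff_monomial]
      rw [Finset.sum_eq_single m (fun b _ hb => if_neg fun e => hb (Subtype.ext e)) (by simp),
        if_pos rfl]
    rw [this]
    exact (weightedHomogeneousComponent_of_mem (g m).2).trans (if_pos rfl)
  haveI : ∀ m, Module.Finite ℂ (S m) := fun m => finite_piece w hw _
  haveI : ∀ m : {x // x ∈ fitSet D Finset.univ d},
      Module.Finite ℂ (Piece w P (d.some - Finsupp.weight D m.1)) := fun m => piece_finite w hw P _
  have e := (LinearMap.quotKerEquivOfSurjective (M := S')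
    (M₂ := (m : {x // x ∈ fitSet D Finset.univ d}) → Piece w P (d.some - Finsupp.weight D m.1))
    T hsurj).finrank_eq
  rw [hker, Module.finrank_pi_fintype] at e
  rw [hilb, e]
  exact Finset.sum_coe_sort _ (fun m => hilb w P (d.some - Finsupp.weight D m))

/-- power series without the extra coordinate -/
noncomputable def eSer (f : MvPowerSeries ι ℤ) : MvPowerSeries (Option ι) ℤ :=
  fun d => if d none = 0 then f d.some else 0

omit [Fintype ι] in
theorem emb_le (e : ι →₀ ℕ) (d : Option ι →₀ ℕ) : emb e ≤ d ↔ e ≤ d.some := by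
  constructor
  · intro h i; simpa [emb_some] using h (some i)
  · rintro h (_ | i)
    · simp [emb_none]
    · simpa [emb_some] using h i

omit [Fintype ι] in
theorem eSer_mul (f : MvPowerSeries ι ℤ) (q : MvPolynomial ι ℤ) :
    eSer (f * (q : MvPowerSeries ι ℤ)) = eSer f * (rename some q : MvPolynomial (Option ι) ℤ) := by
  classical
  induction q using MvPolynomial.induction_on' with
  | monomial e c =>
    rw [rename_monomial, coe_monomial, coe_monomial]
    ext d
    rw [MvPowerSeries.coeff_mul_monomial]
    show (if d none = 0 then (f * MvPowerSeries.monomial e c) d.some else 0) = _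
    rw [← MvPowerSeries.coeff_apply (f := f * MvPowerSeries.monomial e c),
      MvPowerSeries.coeff_mul_monomial]
    change _ = if emb e ≤ d then eSer f (d - emb e) * c else 0
    have hsub : (d - emb e).some = d.some - e := by ext i; simp [emb_some]
    simp only [emb_le, eSer, Finsupp.tsub_apply, emb_none, tsub_zero, hsub]
    split_ifs <;> simp_all [MvPowerSeries.coeff_apply]
  | add a b ha hb =>
    rw [map_add, coe_add, coe_add, mul_add, mul_add, ← ha, ← hb]
    ext d
    rw [map_add]
    simp only [MvPowerSeries.coeff_apply, eSer]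
    split_ifs <;> first | rfl | exact (add_zero 0).symm

omit [Fintype ι] in
theorem eSer_coe (q : MvPolynomial ι ℤ) :
    eSer (q : MvPowerSeries ι ℤ) = ((rename some q : MvPolynomial (Option ι) ℤ) : MvPowerSeries (Option ι) ℤ) := by
  have h := eSer_mul (1 : MvPowerSeries ι ℤ) q
  rw [one_mul] at h
  rw [h]
  have h1 : eSer (1 : MvPowerSeries ι ℤ) = 1 := by
    classical
    ext d
    rw [MvPowerSeries.coeff_one]
    show (if d none = 0 then (1 : MvPowerSeries ι ℤ) d.some else 0) = _
    rw [← MvPowerSeries.coeff_apply (f := (1 : MvPowerSeries ι ℤ)), MvPowerSeries.coeff_one]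
    by_cases h : d = 0
    · subst h; simp
    · rw [if_neg h]
      by_cases h0 : d none = 0
      · rw [if_pos h0, if_neg fun h' => h ?_]
        ext o
        rcases o with _ | i
        · simpa using h0
        · simpa using DFunLike.congr_fun h' i
      · rw [if_neg h0]
  rw [h1, one_mul]

/-- counting monomials in some of the new variables -/
noncomputable def partSer [DecidableEq τ] (H : (ι →₀ ℕ) → ℤ) (s : Finset τ) :
    MvPowerSeries (Option ι) ℤ :=
  fun d => ∑ m ∈ fitSet D s d, H (d.some - Finsupp.weight D m)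

theorem partSer_mul [DecidableEq τ] (H : (ι →₀ ℕ) → ℤ) (s : Finset τ) :
    partSer D H s * ((∏ a ∈ s, (1 - monomial (emb1 (D a)) 1) : MvPolynomial (Option ι) ℤ) :
      MvPowerSeries (Option ι) ℤ) = eSer H := by
  classical
  induction s using Finset.induction_on with
  | empty =>
    rw [Finset.prod_empty, MvPolynomial.coe_one, mul_one]
    funext d
    simp only [partSer, eSer, fitSet]
    by_cases h : d none = 0
    · simp [h, Finset.finsuppAntidiag_empty_zero, Finset.filter_singleton]
    · rw [Finset.finsuppAntidiag_empty_of_ne_zero h]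
      simp [h]
  | insert a s ha ih =>
    rw [Finset.prod_insert ha, coe_mul, ← mul_assoc]
    have key : partSer D H (insert a s) *
        ((1 - monomial (emb1 (D a)) 1 : MvPolynomial (Option ι) ℤ) : MvPowerSeries (Option ι) ℤ) =
        partSer D H s := by
      rw [show ((1 - monomial (emb1 (D a)) 1 : MvPolynomial (Option ι) ℤ) :
          MvPowerSeries (Option ι) ℤ) = 1 - MvPowerSeries.monomial (emb1 (D a)) 1 by
        have h := MvPolynomial.coeToMvPowerSeries.ringHom.map_sub
          (1 : MvPolynomial (Option ι) ℤ) (monomial (emb1 (D a)) 1)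
        simpa [MvPolynomial.coeToMvPowerSeries.ringHom_apply] using h]
      ext d
      rw [mul_sub, mul_one, map_sub, MvPowerSeries.coeff_mul_monomial, mul_one]
      simp only [MvPowerSeries.coeff_apply]
      have hsplit : fitSet D s d = (fitSet D (insert a s) d).filter fun m => m a = 0 := by
        ext m
        simp only [fitSet, Finset.mem_filter, Finset.mem_finsuppAntidiag, Finset.sum_insert ha]
        constructor
        · rintro ⟨⟨h1, h2⟩, h3⟩
          have h0 : m a = 0 := Finsupp.notMem_support_iff.1 fun h => ha (h2 h)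
          exact ⟨⟨⟨by rw [h0, zero_add, h1], h2.trans (Finset.subset_insert _ _)⟩, h3⟩, h0⟩
        · rintro ⟨⟨⟨h1, h2⟩, h3⟩, h0⟩
          refine ⟨⟨by simpa [h0] using h1, fun x hx => ?_⟩, h3⟩
          rcases Finset.mem_insert.1 (h2 hx) with rfl | h
          · exact absurd h0 (Finsupp.mem_support_iff.1 hx)
          · exact h
      show (∑ m ∈ fitSet D (insert a s) d, H (d.some - Finsupp.weight D m)) -
        (if emb1 (D a) ≤ d then ∑ m ∈ fitSet D (insert a s) (d - emb1 (D a)),
          H ((d - emb1 (D a)).some - Finsupp.weight D m) else 0) =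
        ∑ m ∈ fitSet D s d, H (d.some - Finsupp.weight D m)
      rw [hsplit, sub_eq_iff_eq_add, ← Finset.sum_filter_add_sum_filter_not
        (fitSet D (insert a s) d) (fun m => m a = 0)]
      congr 1
      have hw1 : ∀ m : τ →₀ ℕ, Finsupp.weight D (m + Finsupp.single a 1) =
          Finsupp.weight D m + D a := by
        intro m
        rw [map_add]
        simp [Finsupp.weight_apply]
      have hsum : ∀ m : τ →₀ ℕ, (insert a s).sum ⇑(m + Finsupp.single a 1 : τ →₀ ℕ) =
          (insert a s).sum ⇑m + 1 := by
        intro m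
        simp [Finsupp.coe_add, Finset.sum_add_distrib, Finsupp.single_apply]
      split_ifs with hle
      · have hn : 1 ≤ d none := by simpa [emb1_none] using hle none
        have hd : D a ≤ d.some := fun i => by simpa [emb1, emb_some] using hle (some i)
        have hsome : (d - emb1 (D a)).some = d.some - D a := by
          ext i; simp [emb1, emb_some]
        have hnone : (d - emb1 (D a)) none = d none - 1 := by simp [emb1_none]
        symm
        refine Finset.sum_bij (fun m _ => m + Finsupp.single a 1) ?_ ?_ ?_ ?_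
        · intro m hm
          simp only [fitSet, Finset.mem_filter, Finset.mem_finsuppAntidiag, hnone, hsome] at hm ⊢
          refine ⟨⟨⟨?_, ?_⟩, ?_⟩, by simp⟩
          · rw [hsum]; omega
          · intro x hx
            rcases Finset.mem_union.1 (Finsupp.support_add hx) with h | h
            · exact hm.1.2 h
            · exact Finset.mem_insert.2 (Or.inl (by simpa using Finsupp.support_single_subset h))
          · rw [hw1]
            calc Finsupp.weight D m + D a ≤ (d.some - D a) + D a := add_le_add_left hm.2 _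
              _ = d.some := tsub_add_cancel_of_le hd
        · intro m _ m' _ h
          exact add_right_cancel h
        · intro m hm
          simp only [fitSet, Finset.mem_filter, Finset.mem_finsuppAntidiag] at hm
          obtain ⟨⟨⟨h1, h2⟩, h3⟩, h0⟩ := hm
          have hle' : Finsupp.single a 1 ≤ m := by
            rw [Finsupp.single_le_iff]; omega
          have he : m - Finsupp.single a 1 + Finsupp.single a 1 = m := tsub_add_cancel_of_le hle'
          refine ⟨m - Finsupp.single a 1, ?_, he⟩
          simp only [fitSet, Finset.mem_filter, Finset.mem_finsuppAntidiag, hnone, hsome]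
          refine ⟨⟨?_, (Finsupp.support_tsub).trans h2⟩, ?_⟩
          · have := hsum (m - Finsupp.single a 1)
            rw [he, h1] at this
            omega
          · refine le_tsub_of_add_le_right ?_
            rw [← hw1, he]; exact h3
        · intro m hm
          rw [hw1, hsome, tsub_tsub, add_comm (D a)]
      · rw [eq_comm, Finset.sum_eq_zero]
        intro m hm
        exfalso
        simp only [fitSet, Finset.mem_filter, Finset.mem_finsuppAntidiag] at hm
        obtain ⟨⟨⟨h1, -⟩, h3⟩, h0⟩ := hm
        apply hle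
        have hma : m a ≤ d none := h1 ▸ Finset.single_le_sum (fun x _ => Nat.zero_le _)
          (Finset.mem_insert_self a s)
        have hDa : D a ≤ Finsupp.weight D m := by
          have hle' : Finsupp.single a 1 ≤ m := by rw [Finsupp.single_le_iff]; omega
          rw [← tsub_add_cancel_of_le hle', hw1]
          exact le_add_self
        rintro (_ | i)
        · rw [emb1_none]; omega
        · simpa [emb1, emb_some] using hDa.trans h3 i
    rw [key, ih]

theorem codim_ext' {P : Ideal (MvPolynomial σ ℂ)} [P.IsPrime] :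
    codim (ext' τ P) = codim P := by
  classical
  let A := MvPolynomial σ ℂ ⧸ P
  let f : MvPolynomial (σ ⊕ τ) ℂ →ₐ[ℂ] MvPolynomial τ A :=
    (mapAlgHom (Ideal.Quotient.mkₐ ℂ P)).comp (psi σ τ)
  have hf : Function.Surjective f := by
    intro y
    induction y using MvPolynomial.induction_on with
    | C c =>
      obtain ⟨g, rfl⟩ := Ideal.Quotient.mk_surjective c
      exact ⟨rename Sum.inl g, by simp [f, psi_rename]⟩
    | add a b ha hb =>
      obtain ⟨a', rfl⟩ := ha; obtain ⟨b', rfl⟩ := hb
      exact ⟨a' + b', map_add _ _ _⟩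
    | mul_X a i ha =>
      obtain ⟨a', rfl⟩ := ha
      exact ⟨a' * X (Sum.inr i), by rw [map_mul]; simp [f, psi]⟩
  have e : Algebra.trdeg ℂ (MvPolynomial (σ ⊕ τ) ℂ ⧸ ext' τ P) =
      Algebra.trdeg ℂ (MvPolynomial τ A) :=
    AlgEquiv.trdeg_eq (A' := MvPolynomial τ A) (Ideal.quotientKerAlgEquivOfSurjective hf)
  have hA : Algebra.trdeg ℂ A + Algebra.trdeg A (MvPolynomial τ A) =
      Algebra.trdeg ℂ (MvPolynomial τ A) := trdeg_add_eq ℂ A
  rw [MvPolynomial.trdeg_of_isDomain] at hA
  unfold codim
  rw [show Algebra.trdeg ℂ (MvPolynomial (σ ⊕ τ) ℂ ⧸ ext' τ P) = _ from e, ← hA]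
  have hfin : Algebra.trdeg ℂ A < Cardinal.aleph0 := trdeg_lt_aleph0_of_finiteType
  rw [Cardinal.toNat_add hfin (by simp)]
  simp [A]
  omega

theorem extPin : ExtPin := by
  classical
  intro σ τ ι _ _ _ w D hw p _ P hP
  obtain ⟨hPp, hPh, hPc⟩ := hP
  haveI := hPp
  refine ⟨ext' τ P, ⟨RingHom.ker_isPrime _, ext'_hom w D hPh, ?_⟩, ?_, codim_ext'.le⟩
  swap
  · rw [Ideal.map_le_iff_le_comap]
    intro f hf
    rw [Ideal.mem_comap, mem_ext']
    intro m
    rw [psi_rename, coeff_C]
    split_ifs
    · exact hf
    · exact P.zero_mem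
  have hex : ∃ K, IsK w P K := by
    by_contra hcon
    apply hPc
    simp [cls, lowZ, kshift, kpoly, hcon]
  have hk : IsK w P (kpoly w P) := by
    rw [kpoly, dif_pos hex]; exact hex.choose_spec
  have hser : ser (extWt w D) (ext' τ P) =
      partSer D (fun e => (hilb w P e : ℤ)) Finset.univ := by
    funext d
    simp only [ser, partSer, hilb_ext' w D hw, Nat.cast_sum]
  have hk' : IsK (extWt w D) (ext' τ P) (rename some (kpoly w P)) := by
    have hden : den (extWt w D) =
        rename some (den w) * ∏ a, (1 - monomial (emb1 (D a)) (1 : ℤ)) := by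
      rw [den, Fintype.prod_sum_type, den, map_prod]
      congr 1
      refine Finset.prod_congr rfl fun v _ => ?_
      simp [extWt, emb, rename_monomial]
    have hp1 := partSer_mul D (fun e => (hilb w P e : ℤ)) Finset.univ
    rw [IsK, ← eSer_coe, hk, eSer_mul, hden, coe_mul, hser]
    rw [show eSer (ser w P) = eSer (fun e => (hilb w P e : ℤ)) from rfl, ← hp1]
    ring
  have hkp : kpoly (extWt w D) (ext' τ P) = rename some (kpoly w P) := by
    rw [kpoly, dif_pos ⟨_, hk'⟩]
    exact MvPolynomial.coe_injective _ _ (Exists.choose_spec (⟨_, hk'⟩ : ∃ K, IsK _ _ K) |>.trans hk'.symm)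
  have hshift : kshift (extWt w D) (ext' τ P) = rename some (kshift w P) := by
    rw [kshift, hkp, aeval_rename, kshift, ← AlgHom.comp_apply, comp_aeval]
    congr 1
    ext i
    simp [Function.comp]
  have hcls : cls (extWt w D) p (ext' τ P) = rename some (cls w p P) := by
    rw [cls, lowZ, codim_ext', hshift, cls, lowZ, ← map_rename]
    congr 1
    have hh : ∀ q : MvPolynomial ι ℤ, homogeneousComponent (codim P) (rename some q) =
        (rename some (homogeneousComponent (codim P) q) : MvPolynomial (Option ι) ℤ) := by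
      intro q
      induction q using MvPolynomial.induction_on' with
      | monomial e c =>
        simp only [rename_monomial, homogeneousComponent, comp_monomial]
        have : Finsupp.weight (1 : Option ι → ℕ) (e.mapDomain some) =
            Finsupp.weight (1 : ι → ℕ) e := by
          simp only [Finsupp.weight_apply]
          rw [Finsupp.sum_mapDomain_index_inj (Option.some_injective _)]
          rfl
        rw [this]
        split_ifs <;> simp [rename_monomial]
      | add a b ha hb => simp [map_add, ha, hb]
    exact hh _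
  rw [hcls]
  exact fun h => hPc (rename_injective _ (Option.some_injective _) (by rw [h, map_zero]))

end Vale.Agent.P199.K
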