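import Vale.Agent.P199.K.Defs

/-! P199, DIV: the codimension is monotone, strictly on primes. -/

namespace Vale.Agent.P199.K

open MvPolynomial Cardinal

variable {σ : Type} [Fintype σ]

theorem trdeg_quot_le (P : Ideal (MvPolynomial σ ℂ)) :
    Algebra.trdeg ℂ (MvPolynomial σ ℂ ⧸ P) ≤ Fintype.card σ := by
  refine le_trans (trdeg_le_of_surjective (Ideal.Quotient.mkₐ ℂ P)
    (Ideal.Quotient.mkₐ_surjective ℂ P)) ?_
  rw [MvPolynomial.trdeg_of_isDomain]
  simp

theorem codim_mono {P Q : Ideal (MvPolynomial σ ℂ)} (h : P ≤ Q) : codim P ≤ codim Q := by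
  have hle := trdeg_le_of_surjective (Ideal.Quotient.factorₐ ℂ h) (Ideal.Quotient.factor_surjective h)
  have := Cardinal.toNat_le_toNat hle (lt_of_le_of_lt (trdeg_quot_le P) (natCast_lt_aleph0))
  unfold codim
  omega

theorem codim_strict {P Q : Ideal (MvPolynomial σ ℂ)} (hP : P.IsPrime) (hQ : Q.IsPrime)
    (h : P ≤ Q) {g : MvPolynomial σ ℂ} (hgQ : g ∈ Q) (hgP : g ∉ P) :
    codim P + 1 ≤ codim Q := by
  let f := Ideal.Quotient.factorₐ ℂ h
  have hf : Function.Surjective f := Ideal.Quotient.factor_surjective h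
  set q : MvPolynomial σ ℂ ⧸ P := Ideal.Quotient.mk P g
  have hq : q ≠ 0 := by simpa [q, Ideal.Quotient.eq_zero_iff_mem] using hgP
  have hfq : f q = 0 := by
    simpa [f, q, Ideal.Quotient.eq_zero_iff_mem] using hgQ
  obtain ⟨s, hs⟩ := exists_isTranscendenceBasis ℂ (MvPolynomial σ ℂ ⧸ Q)
  choose x hx using fun b : s => hf b.1
  have hfx : AlgebraicIndependent ℂ (f ∘ x) := by
    rw [show f ∘ x = Subtype.val from funext hx]; exact hs.1
  have hxi : AlgebraicIndependent ℂ x := AlgebraicIndependent.of_comp f hfx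
  have htr : Transcendental (Algebra.adjoin ℂ (Set.range x)) q := by
    intro halg
    obtain ⟨e, he0, he⟩ := halg.exists_nonzero_coeff_and_aeval_eq_zero
      (mem_nonZeroDivisors_of_ne_zero hq)
    apply he0
    have hh : e.eval₂ (algebraMap (Algebra.adjoin ℂ (Set.range x)) _) q = 0 := he
    rw [← Polynomial.divX_mul_X_add e] at hh
    simp only [Polynomial.eval₂_add, Polynomial.eval₂_mul, Polynomial.eval₂_X,
      Polynomial.eval₂_C] at hh
    have h1 : f (e.coeff 0 : Algebra.adjoin ℂ (Set.range x)).1 = 0 := by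
      have := congrArg f hh
      rw [map_zero, map_add, map_mul, hfq, mul_zero, zero_add] at this
      exact this
    obtain ⟨c, hc⟩ := (Algebra.adjoin_range_eq_range_aeval ℂ x).le (e.coeff 0).2
    erw [← hc, ← AlgHom.comp_apply, comp_aeval] at h1
    have : c = 0 := hfx.eq_zero_of_aeval_eq_zero c h1
    subst this
    erw [map_zero] at hc
    exact Subtype.ext hc.symm
  have hopt := (hxi.option_iff_transcendental q).2 htr
  have hle := hopt.cardinalMk_le_trdeg
  have hA := trdeg_quot_le P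
  have hAf : Algebra.trdeg ℂ (MvPolynomial σ ℂ ⧸ P) < ℵ₀ := lt_of_le_of_lt hA natCast_lt_aleph0
  rw [Cardinal.mk_option, hs.cardinalMk_eq_trdeg] at hle
  have hB : Algebra.trdeg ℂ (MvPolynomial σ ℂ ⧸ Q) < ℵ₀ :=
    lt_of_le_of_lt (trdeg_quot_le Q) natCast_lt_aleph0
  have h1 := Cardinal.toNat_le_toNat hle hAf
  rw [Cardinal.toNat_add hB Cardinal.one_lt_aleph0, Cardinal.one_toNat] at h1
  have h2 := Cardinal.toNat_le_toNat hA natCast_lt_aleph0
  rw [Cardinal.toNat_natCast] at h2
  unfold codim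
  omega

end Vale.Agent.P199.K
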